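import Mathlib

/-!
P086: combinatorics of the word `w = ∏_{j=1..L} b^j a` in the free group on `a, b`.

`cross g` is the signed crossing count of the `a`-edges of the Cayley tree by any path from `1`
to `g` (the Fox derivative `∂g/∂a`): it obeys the cocycle identity, so it does not depend on
the spelling of `g`.
-/

namespace VP086.Word

open Finsupp

/-- The free group on the two carriers. -/
abbrev G2 : Type := FreeGroup (Fin 2)

/-- The moving carrier. -/
def a : G2 := FreeGroup.of 0

/-- The fixed carrier. -/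
def b : G2 := FreeGroup.of 1

/-- Translation of a finitely supported function. -/
noncomputable def shift (g : G2) : (G2 →₀ ℤ) →+ (G2 →₀ ℤ) :=
  Finsupp.mapDomain.addMonoidHom (g * ·)

@[simp] lemma shift_single (g v : G2) (c : ℤ) : shift g (single v c) = single (g * v) c :=
  Finsupp.mapDomain_single

@[simp] lemma shift_one (f : G2 →₀ ℤ) : shift 1 f = f := by
  show Finsupp.mapDomain (fun v => (1 : G2) * v) f = f
  simp only [one_mul]
  exact Finsupp.mapDomain_id

lemma shift_mul (g g' : G2) (f : G2 →₀ ℤ) : shift (g * g') f = shift g (shift g' f) := by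
  show Finsupp.mapDomain (fun v => g * g' * v) f =
    Finsupp.mapDomain (fun v => g * v) (Finsupp.mapDomain (fun v => g' * v) f)
  rw [← Finsupp.mapDomain_comp]
  congr 1
  funext v
  simp [Function.comp, mul_assoc]

/-- Pairs (derivative, element) with the product rule. -/
@[ext]
structure Fox where
  /-- derivative -/
  der : G2 →₀ ℤ
  /-- element -/
  pos : G2

noncomputable instance : Mul Fox := ⟨fun x y => ⟨x.der + shift x.pos y.der, x.pos * y.pos⟩⟩
noncomputable instance : One Fox := ⟨⟨0, 1⟩⟩
noncomputable instance : Inv Fox := ⟨fun x => ⟨-shift x.pos⁻¹ x.der, x.pos⁻¹⟩⟩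

@[simp] lemma der_mul (x y : Fox) : (x * y).der = x.der + shift x.pos y.der := rfl
@[simp] lemma pos_mul (x y : Fox) : (x * y).pos = x.pos * y.pos := rfl
@[simp] lemma der_one : (1 : Fox).der = 0 := rfl
@[simp] lemma pos_one : (1 : Fox).pos = 1 := rfl
@[simp] lemma der_inv (x : Fox) : x⁻¹.der = -shift x.pos⁻¹ x.der := rfl
@[simp] lemma pos_inv (x : Fox) : x⁻¹.pos = x.pos⁻¹ := rfl

noncomputable instance : Group Fox :=
  Group.ofLeftAxioms
    (fun x y z => Fox.ext (by simp [shift_mul, add_assoc]) (by simp [mul_assoc]))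
    (fun x => Fox.ext (by simp) (by simp))
    (fun x => Fox.ext (by simp) (by simp))

/-- The homomorphism computing the derivative along `a`. -/
noncomputable def foxHom : G2 →* Fox :=
  FreeGroup.lift ![⟨single 1 1, a⟩, ⟨0, b⟩]

lemma foxHom_pos (g : G2) : (foxHom g).pos = g := by
  induction g using FreeGroup.induction_on with
  | C1 => simp
  | of i => fin_cases i <;> simp [foxHom, a, b]
  | inv_of i h => simp [h]
  | mul x y hx hy => simp [hx, hy]

/-- Signed crossing count of the `a`-edge `(v, v a)` by paths from `1` to `g`. -/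
noncomputable def cross (g : G2) : G2 →₀ ℤ := (foxHom g).der

@[simp] lemma cross_one : cross 1 = 0 := by simp [cross]

lemma cross_mul (g h : G2) : cross (g * h) = cross g + shift g (cross h) := by
  simp [cross, foxHom_pos]

lemma cross_inv (g : G2) : cross g⁻¹ = -shift g⁻¹ (cross g) := by
  simp [cross, foxHom_pos]

@[simp] lemma cross_a : cross a = single 1 1 := by simp [cross, foxHom, a]

@[simp] lemma cross_b : cross b = 0 := by simp [cross, foxHom, b]

lemma cross_mul_apply (g h v : G2) : cross (g * h) v = cross g v + cross h (g⁻¹ * v) := by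
  rw [cross_mul, Finsupp.add_apply]
  congr 1
  conv_lhs => rw [show v = g * (g⁻¹ * v) by group]
  exact Finsupp.mapDomain_apply (fun x y (hxy : g * x = g * y) => mul_left_cancel hxy) _ _

@[simp] lemma cross_b_pow (n : ℕ) : cross (b ^ n) = 0 := by
  induction n with
  | zero => simp
  | succ n ih => rw [pow_succ, cross_mul, ih, cross_b]; simp

/-- `W k = (b a) (b² a) ⋯ (b^k a)`; the word of length parameter `L` is `W L`. -/
def W : ℕ → G2
  | 0 => 1
  | k + 1 => W k * b ^ (k + 1) * a

/-- Prefix of the word before its `j`-th letter `a` (counted from `0`). -/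
def P (j : ℕ) : G2 := W j * b ^ (j + 1)

/-- The rest of the word. -/
def Q (L j : ℕ) : G2 := (P j)⁻¹ * W L

lemma W_succ (k : ℕ) : W (k + 1) = P k * a := rfl

@[simp] lemma P_mul_Q (L j : ℕ) : P j * Q L j = W L := mul_inv_cancel_left _ _

lemma W_inv_mul_P (L j : ℕ) : (W L)⁻¹ * P j = (Q L j)⁻¹ := by simp [Q]

lemma cross_W (L : ℕ) : cross (W L) = ∑ j ∈ Finset.range L, single (P j) 1 := by
  induction L with
  | zero => simp [W]
  | succ k ih =>
    rw [Finset.sum_range_succ, ← ih, W_succ, cross_mul, P, cross_mul, cross_b_pow, cross_a]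
    simp

lemma cross_W_inv (L : ℕ) :
    cross (W L)⁻¹ = -∑ j ∈ Finset.range L, single (Q L j)⁻¹ 1 := by
  rw [cross_inv, cross_W, map_sum]
  simp [W_inv_mul_P]

/-- Exponent sums of `a` and `b`. -/
def cnt : G2 →* Multiplicative (ℤ × ℤ) :=
  FreeGroup.lift ![Multiplicative.ofAdd ((1 : ℤ), (0 : ℤ)), Multiplicative.ofAdd ((0 : ℤ), (1 : ℤ))]

/-- `1 + 2 + ⋯ + k`. -/
def tri : ℕ → ℤ
  | 0 => 0
  | k + 1 => tri k + (k + 1)

lemma two_tri (k : ℕ) : 2 * tri k = k * (k + 1) := by
  induction k with
  | zero => simp [tri]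
  | succ k ih => rw [tri]; push_cast; linear_combination ih

lemma tri_nonneg (k : ℕ) : 0 ≤ tri k := by
  induction k with
  | zero => simp [tri]
  | succ k ih => rw [tri]; positivity

/-- Exponent sums, additively. -/
def ex (g : G2) : ℤ × ℤ := (cnt g).toAdd

@[simp] lemma ex_one : ex 1 = 0 := by simp [ex]
@[simp] lemma ex_mul (g h : G2) : ex (g * h) = ex g + ex h := by simp [ex]
@[simp] lemma ex_inv (g : G2) : ex g⁻¹ = -ex g := by simp [ex]
@[simp] lemma ex_pow (g : G2) (n : ℕ) : ex (g ^ n) = n • ex g := by simp [ex]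
@[simp] lemma ex_a : ex a = (1, 0) := by simp [ex, cnt, a]
@[simp] lemma ex_b : ex b = (0, 1) := by simp [ex, cnt, b]

@[simp] lemma ex_W (k : ℕ) : ex (W k) = ((k : ℤ), tri k) := by
  induction k with
  | zero => simp [W, tri, Prod.ext_iff]
  | succ k ih => simp [W, tri, ih]

@[simp] lemma ex_P (j : ℕ) : ex (P j) = ((j : ℤ), tri (j + 1)) := by
  simp [P, tri]

@[simp] lemma ex_Q (L j : ℕ) : ex (Q L j) = ((L : ℤ) - j, tri L - tri (j + 1)) := by
  simp [Q, Prod.ext_iff]; constructor <;> ring

lemma P_injective : Function.Injective P := fun i j h => by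
  have := congrArg (fun g => (ex g).1) h
  simpa using this

lemma Q_injective (L : ℕ) : Function.Injective (Q L) := fun i j h => by
  have := congrArg (fun g => (ex g).1) h
  simpa using this

lemma W_ne_one {L : ℕ} (hL : L ≠ 0) : W L ≠ 1 := fun h => by
  have := congrArg (fun g => (ex g).1) h
  simp at this; exact hL this

lemma W_inv_ne {L : ℕ} (hL : L ≠ 0) : (W L)⁻¹ ≠ W L := fun h => by
  have := congrArg (fun g => (ex g).1) h
  simp at this; omega

lemma cross_W_P {L j : ℕ} (hj : j < L) : cross (W L) (P j) = 1 := by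
  rw [cross_W, Finsupp.finsetSum_apply,
    Finset.sum_eq_single j (fun i _ hi => Finsupp.single_eq_of_ne
      (fun h => hi (P_injective h).symm)) (fun h => absurd (Finset.mem_range.2 hj) h)]
  simp

lemma cross_W_inv_Q {L j : ℕ} (hj : j < L) : cross (W L)⁻¹ (Q L j)⁻¹ = -1 := by
  rw [cross_W_inv, Finsupp.neg_apply, Finsupp.finsetSum_apply,
    Finset.sum_eq_single j (fun i _ hi => Finsupp.single_eq_of_ne
      (fun h => hi (Q_injective L (inv_injective h)).symm))
      (fun h => absurd (Finset.mem_range.2 hj) h)]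
  simp

/-- The crossing identity: a closing condition at the `L` marked edges selects exactly `w, w⁻¹`. -/
theorem crossing_identity (L : ℕ) (h : G2) :
    ∑ j ∈ Finset.range L, ((if h = P j * Q L j then cross h (P j) else 0) -
        (if h = (P j * Q L j)⁻¹ then cross h (Q L j)⁻¹ else 0)) =
      (L : ℤ) * ((if h = W L then 1 else 0) + if h = (W L)⁻¹ then 1 else 0) := by
  simp only [P_mul_Q]
  rw [Finset.sum_congr rfl (g := fun _ => ((if h = W L then (1 : ℤ) else 0) +
    if h = (W L)⁻¹ then 1 else 0))]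
  · simp
  intro j hj
  have hj' := Finset.mem_range.1 hj
  rw [sub_eq_add_neg]
  congr 1
  · split_ifs with h1
    · rw [h1, cross_W_P hj']
    · rfl
  · split_ifs with h1
    · rw [h1, cross_W_inv_Q hj']; rfl
    · rfl

/-! ### The four kinds of off-diagonal words -/

/-- The left word of the four kinds. -/
def left (L : ℕ) : Fin 4 → ℕ → ℕ → G2 :=
  ![fun j l => P j * (P l)⁻¹, fun j l => P j * Q L l,
    fun j l => (Q L j)⁻¹ * (P l)⁻¹, fun j l => (Q L j)⁻¹ * Q L l]

/-- The right word of the four kinds. -/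
def right (L : ℕ) : Fin 4 → ℕ → ℕ → G2 :=
  ![fun j l => (Q L l)⁻¹ * Q L j, fun j l => P l * Q L j,
    fun j l => (Q L l)⁻¹ * (P j)⁻¹, fun j l => P l * (P j)⁻¹]

/-- The kind that the right word realises as a left word, with the indices exchanged. -/
def dual : Fin 4 → Fin 4 := ![3, 1, 2, 0]

lemma right_eq_left (L : ℕ) (t : Fin 4) (j l : ℕ) : right L t j l = left L (dual t) l j := by
  fin_cases t <;> rfl

private lemma pair_eq {j l j' l' : ℕ} (hne : j ≠ l) (h1 : (j : ℤ) - l = (j' : ℤ) - l')
    (h2 : tri (j + 1) - tri (l + 1) = tri (j' + 1) - tri (l' + 1)) : j = j' ∧ l = l' := by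
  have e : ((j : ℤ) - l) * ((j + l + 3) - (j' + l' + 3)) = 0 := by
    have a1 := two_tri (j + 1); have a2 := two_tri (l + 1)
    have a3 := two_tri (j' + 1); have a4 := two_tri (l' + 1)
    push_cast at a1 a2 a3 a4
    linear_combination 2 * h2 - a1 + a2 + a3 - a4 - (((j':ℤ) + l' + 3)) * h1
  rcases mul_eq_zero.1 e with h | h <;> omega

lemma left_injOn {L : ℕ} (t : Fin 4) {j l j' l' : ℕ} (hne : j ≠ l)
    (h : left L t j l = left L t j' l') : j = j' ∧ l = l' := by
  have h1 := congrArg (fun g => (ex g).1) h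
  have h2 := congrArg (fun g => (ex g).2) h
  fin_cases t <;> simp [left] at h1 h2 <;> exact pair_eq hne (by linarith) (by linarith)

lemma left_ne_one {L : ℕ} (t : Fin 4) {j l : ℕ} (hj : j < L) (hl : l < L) (hne : j ≠ l) :
    left L t j l ≠ 1 := by
  intro h
  have h1 := congrArg (fun g => (ex g).1) h
  fin_cases t <;> simp [left] at h1 <;> omega

lemma right_injOn {L : ℕ} (t : Fin 4) {j l j' l' : ℕ} (hne : j ≠ l)
    (h : right L t j l = right L t j' l') : j = j' ∧ l = l' := by
  rw [right_eq_left, right_eq_left] at h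
  exact (left_injOn (dual t) hne.symm h).symm

lemma right_ne_one {L : ℕ} (t : Fin 4) {j l : ℕ} (hj : j < L) (hl : l < L) (hne : j ≠ l) :
    right L t j l ≠ 1 := by
  rw [right_eq_left]; exact left_ne_one _ hl hj hne.symm

lemma left_diag (L j : ℕ) : left L 0 j j = 1 ∧ left L 1 j j = W L ∧
    left L 2 j j = (W L)⁻¹ ∧ left L 3 j j = 1 := by
  refine ⟨mul_inv_cancel _, P_mul_Q L j, ?_, inv_mul_cancel _⟩
  show (Q L j)⁻¹ * (P j)⁻¹ = _
  rw [← mul_inv_rev, P_mul_Q]

lemma right_diag (L j : ℕ) : right L 0 j j = 1 ∧ right L 1 j j = W L ∧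
    right L 2 j j = (W L)⁻¹ ∧ right L 3 j j = 1 := by
  simp only [right_eq_left]
  exact ⟨(left_diag L j).2.2.2, (left_diag L j).2.1, (left_diag L j).2.2.1, (left_diag L j).1⟩

/-! ### A derivation on the carriers is given by the crossing count -/

/-- A derivation sending `U a` to `X * U a` and killing `U b` is determined by `cross`. -/
theorem derivation_eq {A : Type*} [Ring A] (d : A → A)
    (hd : ∀ x y, d (x * y) = d x * y + x * d y) (U : G2 →* Aˣ) (X : A)
    (ha : d (U a : A) = X * (U a : A)) (hb : d (U b : A) = 0) (h : G2) :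
    d (U h : A) =
      (cross h).sum fun v c => c • ((U v : A) * X * ((U (v⁻¹ * h) : Aˣ) : A)) := by
  have hd1 : d (1 : A) = 0 := by
    have := hd 1 1
    simp only [mul_one, one_mul] at this
    exact left_eq_add.mp this
  have key : ∀ g : G2, d (U g : A) * ((U g⁻¹ : Aˣ) : A) =
      (cross g).sum fun v c => c • ((U v : A) * X * ((U v⁻¹ : Aˣ) : A)) := by
    intro g
    have conj : ∀ (g : G2) (f : G2 →₀ ℤ),
        ((shift g f).sum fun v c => c • ((U v : A) * X * ((U v⁻¹ : Aˣ) : A))) =
          (U g : A) * (f.sum fun v c => c • ((U v : A) * X * ((U v⁻¹ : Aˣ) : A))) *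
            ((U g⁻¹ : Aˣ) : A) := by
      intro g f
      show (Finsupp.mapDomain (fun v => g * v) f).sum _ = _
      rw [Finsupp.sum_mapDomain_index (fun v => by simp) (fun v c c' => by rw [add_smul]),
        Finsupp.sum, Finsupp.sum, Finset.mul_sum, Finset.sum_mul]
      refine Finset.sum_congr rfl fun v _ => ?_
      simp [-zsmul_eq_mul, mul_assoc]
    have mulcase : ∀ x y : G2,
        d (U x : A) * ((U x⁻¹ : Aˣ) : A) =
          ((cross x).sum fun v c => c • ((U v : A) * X * ((U v⁻¹ : Aˣ) : A))) →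
        d (U y : A) * ((U y⁻¹ : Aˣ) : A) =
          ((cross y).sum fun v c => c • ((U v : A) * X * ((U v⁻¹ : Aˣ) : A))) →
        d (U (x * y) : A) * ((U (x * y)⁻¹ : Aˣ) : A) =
          ((cross (x * y)).sum fun v c => c • ((U v : A) * X * ((U v⁻¹ : Aˣ) : A))) := by
      intro x y hx hy
      rw [cross_mul, Finsupp.sum_add_index' (fun v => by simp) (fun v c c' => by rw [add_smul]),
        conj, ← hx, ← hy]
      simp [hd, mul_assoc, add_mul]
    induction g using FreeGroup.induction_on with
    | C1 => simp [hd1]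
    | of i =>
      fin_cases i
      · show d (U a : A) * ((U a⁻¹ : Aˣ) : A) = (cross a).sum _
        simp [ha, mul_assoc]
      · show d (U b : A) * ((U b⁻¹ : Aˣ) : A) = (cross b).sum _
        simp [hb]
    | inv_of i hi =>
      have h0 : d ((U (FreeGroup.of i)⁻¹ : Aˣ) : A) * (U (FreeGroup.of i) : A) +
          ((U (FreeGroup.of i)⁻¹ : Aˣ) : A) * d (U (FreeGroup.of i) : A) = 0 := by
        rw [← hd, ← Units.val_mul, ← map_mul]
        simp [hd1]
      rw [cross_inv, ← map_neg, conj, Finsupp.sum_neg_index (fun v => by simp)]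
      simp only [neg_smul, Finsupp.sum_neg, inv_inv]
      rw [← hi]
      rw [add_eq_zero_iff_eq_neg] at h0
      rw [h0]
      simp [mul_assoc]
    | mul x y hx hy => exact mulcase x y hx hy
  have e : d (U h : A) = d (U h : A) * ((U h⁻¹ : Aˣ) : A) * (U h : A) := by simp [mul_assoc]
  rw [e, key, Finsupp.sum, Finsupp.sum, Finset.sum_mul]
  refine Finset.sum_congr rfl fun v _ => ?_
  simp [-zsmul_eq_mul, mul_assoc]

end VP086.Word
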