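import Vale.Agent.P086.System
import Vale.Agent.P086.Word.Group

/-!
P086: the size of the derivation attached to the word `W L` and one piece, at the initial point.
-/

open scoped InnerProductSpace

namespace VP086.Word

/-- A symmetric compression `x ↦ ∑ i, l i * x * r i` by projections of `D` of trace `t`. -/
structure Piece {A : Type} [CStarAlgebra A] {H : Type} [NormedAddCommGroup H]
    [InnerProductSpace ℂ H] (S : System A H) where
  t : ℝ
  k : ℕ
  k_le : k ≤ 2
  l : Fin k → A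
  r : Fin k → A
  l_mem : ∀ i, l i ∈ S.D
  r_mem : ∀ i, r i ∈ S.D
  l_star : ∀ i, star (l i) = l i
  r_star : ∀ i, star (r i) = r i
  l_idem : ∀ i, l i * l i = l i
  r_idem : ∀ i, r i * r i = r i
  l_orth : ∀ i j, i ≠ j → l i * l j = 0
  symm : ∀ x : A, ∑ i, r i * x * l i = ∑ i, l i * x * r i
  tau_l : ∀ i, S.τ (l i) = (t : ℂ)
  tau_r : ∀ i, S.τ (r i) = (t : ℂ)

section Generic

variable {A : Type} [CStarAlgebra A]

/-- The value at `u1` of the derivation of the word, divided by `u1`. -/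
noncomputable def Xv (L : ℕ) (U : G2 → A) (y : A) : A :=
  (1 / (Real.sqrt 2 * L) : ℝ) • ∑ j ∈ Finset.range L,
    (U (P j)⁻¹ * y * U (Q L j)⁻¹ - U (Q L j) * y * U (P j))

/-- The normalised sum of the word and its inverse. -/
noncomputable def gv (L : ℕ) (U : G2 → A) : A :=
  (1 / Real.sqrt 2 : ℝ) • (U (W L) + U (W L)⁻¹)

/-- The value of the derivation at `gv`. -/
noncomputable def dgv (L : ℕ) (U : G2 → A) (y : A) : A :=
  (1 / Real.sqrt 2 : ℝ) • ∑ j ∈ Finset.range L,
    (U (P j) * Xv L U y * U (Q L j) - U (Q L j)⁻¹ * Xv L U y * U (P j)⁻¹)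

lemma star_Xv (L : ℕ) (U : G2 → A) (hU : ∀ h, star (U h) = U h⁻¹) {y : A} (hy : star y = y) :
    star (Xv L U y) = -Xv L U y := by
  simp only [Xv, star_smul, star_trivial, star_sum, star_sub, star_mul, hU, hy, inv_inv,
    ← smul_neg, ← Finset.sum_neg_distrib, neg_sub, mul_assoc]

/-- The value at `W L` of a derivation with `d (U a) = X * U a`, `d (U b) = 0`. -/
lemma d_W (d : A → A) (hd : ∀ x y, d (x * y) = d x * y + x * d y) (U : G2 →* Aˣ) (X : A)
    (ha : d (U a : A) = X * (U a : A)) (hb : d (U b : A) = 0) (L : ℕ) :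
    d (U (W L) : A) = ∑ j ∈ Finset.range L, (U (P j) : A) * X * (U (Q L j) : A) := by
  rw [derivation_eq d hd U X ha hb, cross_W,
    ← Finsupp.sum_finsetSum_index (fun v => by simp) (fun v c c' => by rw [add_smul])]
  refine Finset.sum_congr rfl fun j _ => ?_
  rw [Finsupp.sum_single_index (by simp), one_zsmul, Q]

lemma d_W_inv (d : A → A) (hd : ∀ x y, d (x * y) = d x * y + x * d y) (U : G2 →* Aˣ) (X : A)
    (ha : d (U a : A) = X * (U a : A)) (hb : d (U b : A) = 0) (L : ℕ) :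
    d (U (W L)⁻¹ : A) =
      -∑ j ∈ Finset.range L, (U (Q L j)⁻¹ : A) * X * (U (P j)⁻¹ : A) := by
  rw [derivation_eq d hd U X ha hb, cross_W_inv, Finsupp.sum_neg_index (fun v => by simp)]
  simp only [neg_smul, Finsupp.sum_neg]
  rw [← Finsupp.sum_finsetSum_index (fun v => by simp) (fun v c c' => by rw [add_smul])]
  congr 1
  refine Finset.sum_congr rfl fun j _ => ?_
  rw [Finsupp.sum_single_index (by simp), one_zsmul]
  congr 3

  simp [Q, mul_assoc]

end Generic

variable {A : Type} [CStarAlgebra A] {H : Type} [NormedAddCommGroup H] [InnerProductSpace ℂ H]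
  (S : System A H)

/-- The carriers. -/
noncomputable def E (h : G2) : A := (wordHom ![S.u1, S.u2] h : unitary A)

variable {S}

@[simp] lemma E_one : E S 1 = 1 := by simp [E]

lemma E_mul (g h : G2) : E S g * E S h = E S (g * h) := by simp [E]

lemma E_mul' (g h : G2) (x : A) : E S g * (E S h * x) = E S (g * h) * x := by
  rw [← mul_assoc, E_mul]

lemma star_E (g : G2) : star (E S g) = E S g⁻¹ := by rw [E, E, map_inv]; rfl

/-! ### The few moments that are needed -/

/-- Expansion of a four-term product around the values `α`, `β`. -/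
lemma expand4 {B : Type*} [Ring B] [Algebra ℂ B] (d h d' k : B) (α β : ℂ) :
    d * h * d' * k = (d - α • 1) * h * (d' - β • 1) * k + β • ((d - α • 1) * (h * k)) +
      α • (h * (d' - β • 1) * k) + (α * β) • (h * k) := by
  simp only [sub_mul, mul_sub, smul_sub, smul_mul_assoc, mul_smul_comm, mul_one, one_mul,
    mul_assoc, smul_smul, mul_comm β α]
  abel

section Moments

/-- The algebra of `D` and the carriers. -/
abbrev DE (S : System A H) : Subalgebra ℂ A :=
  Algebra.adjoin ℂ ((S.D : Set A) ∪ Set.range fun h => (wordHom ![S.u1, S.u2] h : A))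

lemma D_le {d : A} (hd : d ∈ S.D) : d ∈ DE S := Algebra.subset_adjoin (Or.inl hd)

lemma E_le (h : G2) : E S h ∈ DE S := Algebra.subset_adjoin (Or.inr ⟨h, rfl⟩)

lemma tau_one : S.τ 1 = 1 := by
  unfold Std.τ
  rw [inner_self_eq_norm_sq_to_K, S.norm_one]
  simp

lemma tau_zero : S.τ 0 = 0 := by simp [Std.τ]

lemma tau_add (x y : A) : S.τ (x + y) = S.τ x + S.τ y := by simp [Std.τ]

lemma tau_sub (x y : A) : S.τ (x - y) = S.τ x - S.τ y := by simp [Std.τ]

lemma tau_smul (c : ℂ) (x : A) : S.τ (c • x) = c * S.τ x := by simp [Std.τ]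

lemma tau_sum {ι' : Type*} (s : Finset ι') (f : ι' → A) :
    S.τ (∑ i ∈ s, f i) = ∑ i ∈ s, S.τ (f i) := by simp [Std.τ]

lemma inner_eq_tau (x y : A) : ⟪S.ι x, S.ι y⟫_ℂ = S.τ (star x * y) := S.inner_ι x y

lemma tau_comm' (x y : A) : S.τ (x * y) = S.τ (y * x) := S.tau_comm x y

/-- `x - τ x`. -/
noncomputable def cen (S : System A H) (x : A) : A := x - S.τ x • 1

lemma tau_cen (x : A) : S.τ (cen S x) = 0 := by simp [cen, tau_sub, tau_smul, tau_one]

lemma cen_mem {B : Subalgebra ℂ A} {x : A} (hx : x ∈ B) : cen S x ∈ B :=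
  B.sub_mem hx (B.smul_mem B.one_mem _)

lemma cen_add (x : A) : x = cen S x + S.τ x • 1 := by simp [cen]

lemma tau_q_sq : S.τ (S.q * S.q) = 1 := by
  have := S.semicircle 1
  simpa [pow_two, tau_one] using this

lemma tau_q_mul {Y : A} (hY : Y ∈ DE S) : S.τ (S.q * Y) = 0 := by
  have h1 : S.τ (S.q * cen S Y) = 0 := by
    have := S.free_q [(true, S.q), (false, cen S Y)] (by simp) (by
      intro p hp
      simp only [List.mem_cons, List.mem_nil_iff, or_false] at hp
      rcases hp with rfl | rfl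
      · exact ⟨S.tau_q, Algebra.subset_adjoin rfl⟩
      · exact ⟨tau_cen Y, cen_mem hY⟩) (by simp)
    simpa using this
  rw [cen_add (S := S) Y, mul_add, tau_add, h1, mul_smul_comm, mul_one, tau_smul, S.tau_q]
  simp

lemma tau_qq_mul {Y : A} (hY : Y ∈ DE S) : S.τ (S.q * S.q * Y) = S.τ Y := by
  have hq : cen S (S.q * S.q) ∈ (Algebra.adjoin ℂ ({S.q} : Set A)) :=
    cen_mem (mul_mem (Algebra.subset_adjoin rfl) (Algebra.subset_adjoin rfl))
  have h1 : S.τ (cen S (S.q * S.q) * cen S Y) = 0 := by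
    have := S.free_q [(true, cen S (S.q * S.q)), (false, cen S Y)] (by simp) (by
      intro p hp
      simp only [List.mem_cons, List.mem_nil_iff, or_false] at hp
      rcases hp with rfl | rfl
      · exact ⟨tau_cen _, hq⟩
      · exact ⟨tau_cen Y, cen_mem hY⟩) (by simp)
    simpa using this
  have e : S.q * S.q * Y = cen S (S.q * S.q) * cen S Y + S.τ Y • cen S (S.q * S.q) + Y := by
    rw [show cen S (S.q * S.q) = S.q * S.q - 1 by rw [cen, tau_q_sq, one_smul]]
    simp [cen, mul_sub, sub_mul]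
  rw [e, tau_add, tau_add, h1, tau_smul, tau_cen]
  simp

/-- Schwinger-Dyson equation of order two. -/
lemma tau_qYqZ {Y Z : A} (hY : Y ∈ DE S) (hZ : Z ∈ DE S) :
    S.τ (S.q * Y * S.q * Z) = S.τ Y * S.τ Z := by
  have h1 : S.τ (S.q * cen S Y * S.q * cen S Z) = 0 := by
    have := S.free_q [(true, S.q), (false, cen S Y), (true, S.q), (false, cen S Z)] (by simp) (by
      intro p hp
      simp only [List.mem_cons, List.mem_nil_iff, or_false] at hp
      rcases hp with rfl | rfl | rfl | rfl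
      · exact ⟨S.tau_q, Algebra.subset_adjoin rfl⟩
      · exact ⟨tau_cen Y, cen_mem hY⟩
      · exact ⟨S.tau_q, Algebra.subset_adjoin rfl⟩
      · exact ⟨tau_cen Z, cen_mem hZ⟩) (by simp)
    simpa [mul_assoc] using this
  have h2 : S.τ (S.q * cen S Y * S.q) = 0 := by
    rw [tau_comm', ← mul_assoc, tau_qq_mul (cen_mem hY), tau_cen]
  have e : S.q * Y * S.q * Z = S.q * cen S Y * S.q * cen S Z + S.τ Z • (S.q * cen S Y * S.q) +
      S.τ Y • (S.q * S.q * Z) := by
    simp [cen, mul_sub, sub_mul, mul_assoc, smul_sub]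
  rw [e, tau_add, tau_add, h1, tau_smul, tau_smul, h2, tau_qq_mul hZ]
  simp

lemma mem_adjE (h : G2) : E S h ∈
    Algebra.adjoin ℂ (Set.range fun h => (wordHom ![S.u1, S.u2] h : A)) :=
  Algebra.subset_adjoin ⟨h, rfl⟩

lemma mem_adjD {d : A} (hd : d ∈ S.D) : d ∈ Algebra.adjoin ℂ ((S.D : Set A) ∪ {S.q}) :=
  Algebra.subset_adjoin (Or.inl hd)

lemma tau_E' {h : G2} (hh : h ≠ 1) : S.τ (E S h) = 0 := (S.tau_E h).trans (if_neg hh)

/-- A carrier word and an element of `D` are independent. -/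
lemma tau_E_D {h : G2} (hh : h ≠ 1) {d : A} (hd : d ∈ S.D) : S.τ (E S h * d) = 0 := by
  have h1 : S.τ (E S h * cen S d) = 0 := by
    have := S.free_E [(true, E S h), (false, cen S d)] (by simp) (by
      intro p hp
      simp only [List.mem_cons, List.mem_nil_iff, or_false] at hp
      rcases hp with rfl | rfl
      · exact ⟨tau_E' hh, mem_adjE h⟩
      · exact ⟨tau_cen d, cen_mem (mem_adjD hd)⟩) (by simp)
    simpa using this
  rw [cen_add (S := S) d, mul_add, tau_add, h1, mul_smul_comm, mul_one, tau_smul, tau_E' hh]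
  simp

/-- The four-point moment of `D` and the carriers. -/
lemma tau_D_E_D_E {h k : G2} (hh : h ≠ 1) (hk : k ≠ 1) {d d' : A} (hd : d ∈ S.D)
    (hd' : d' ∈ S.D) :
    S.τ (d * E S h * d' * E S k) = if h * k = 1 then S.τ d * S.τ d' else 0 := by
  have h1 : S.τ (cen S d * E S h * cen S d' * E S k) = 0 := by
    have := S.free_E [(false, cen S d), (true, E S h), (false, cen S d'), (true, E S k)]
      (by simp) (by
      intro p hp
      simp only [List.mem_cons, List.mem_nil_iff, or_false] at hp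
      rcases hp with rfl | rfl | rfl | rfl
      · exact ⟨tau_cen d, cen_mem (mem_adjD hd)⟩
      · exact ⟨tau_E' hh, mem_adjE h⟩
      · exact ⟨tau_cen d', cen_mem (mem_adjD hd')⟩
      · exact ⟨tau_E' hk, mem_adjE k⟩) (by simp)
    simpa [mul_assoc] using this
  have hc : cen S d ∈ S.D ∧ cen S d' ∈ S.D :=
    ⟨S.D.sub_mem hd (S.D.smul_mem S.D.one_mem _), S.D.sub_mem hd' (S.D.smul_mem S.D.one_mem _)⟩
  have h2 : S.τ (cen S d * E S (h * k)) = 0 := by
    by_cases hhk : h * k = 1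
    · rw [hhk, E_one, mul_one, tau_cen]
    · rw [tau_comm']; exact tau_E_D hhk hc.1
  have h3 : S.τ (E S h * cen S d' * E S k) = 0 := by
    rw [tau_comm', ← mul_assoc, E_mul]
    by_cases hhk : k * h = 1
    · rw [hhk, E_one, one_mul, tau_cen]
    · exact tau_E_D hhk hc.2
  have e := expand4 d (E S h) d' (E S k) (S.τ d) (S.τ d')
  rw [E_mul] at e
  rw [e]
  simp only [cen] at h1 h2 h3
  rw [tau_add, tau_add, tau_add, h1, tau_smul, h2, tau_smul, h3, tau_smul]
  have := S.tau_E (h * k)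
  rw [show S.τ (E S (h * k)) = if h * k = 1 then 1 else 0 from this]
  split_ifs <;> simp

end Moments

/-! ### Norms -/

lemma norm_sum_orth {ι' : Type*} (s : Finset ι') (f : ι' → H)
    (ho : ∀ i ∈ s, ∀ j ∈ s, i ≠ j → ⟪f i, f j⟫_ℂ = 0) {M : ℝ} (hM : 0 ≤ M)
    (hf : ∀ i ∈ s, ‖f i‖ ≤ M) : ‖∑ i ∈ s, f i‖ ≤ Real.sqrt s.card * M := by
  have h0 : ⟪∑ i ∈ s, f i, ∑ i ∈ s, f i⟫_ℂ = ∑ i ∈ s, ⟪f i, f i⟫_ℂ := by
    rw [sum_inner]
    refine Finset.sum_congr rfl fun i hi => ?_
    rw [inner_sum]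
    exact Finset.sum_eq_single i (fun j hj hji => ho i hi j hj (Ne.symm hji))
      (fun h => absurd hi h)
  have h1 : ‖∑ i ∈ s, f i‖ ^ 2 = ∑ i ∈ s, ‖f i‖ ^ 2 := by
    have := congrArg Complex.re h0
    simp only [inner_self_eq_norm_sq_to_K, Complex.re_sum] at this
    simpa [← Complex.ofReal_pow] using this
  rw [← Real.sqrt_sq hM, ← Real.sqrt_mul (Nat.cast_nonneg _), ← Real.sqrt_sq (norm_nonneg _)]
  refine Real.sqrt_le_sqrt ?_
  rw [h1]
  calc ∑ i ∈ s, ‖f i‖ ^ 2 ≤ ∑ i ∈ s, M ^ 2 :=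
        Finset.sum_le_sum fun i hi => pow_le_pow_left₀ (norm_nonneg _) (hf i hi) 2
    _ = s.card * M ^ 2 := by simp

namespace Piece

variable (p : Piece S)

/-- The compression. -/
noncomputable def C (x : A) : A := ∑ i, p.l i * x * p.r i

/-- The compressed semicircular element. -/
noncomputable def y : A := p.C S.q

lemma C_add (x x' : A) : p.C (x + x') = p.C x + p.C x' := by
  simp [C, mul_add, add_mul, Finset.sum_add_distrib]

lemma C_sub (x x' : A) : p.C (x - x') = p.C x - p.C x' := by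
  simp [C, mul_sub, sub_mul, Finset.sum_sub_distrib]

lemma C_smul (c : ℝ) (x : A) : p.C (c • x) = c • p.C x := by
  simp [C, Finset.smul_sum]

lemma C_sum {ι' : Type*} (s : Finset ι') (f : ι' → A) : p.C (∑ i ∈ s, f i) = ∑ i ∈ s, p.C (f i) := by
  simp only [C, Finset.mul_sum, Finset.sum_mul]
  exact Finset.sum_comm

lemma C_C (x : A) : p.C (p.C x) = p.C x := by
  simp only [C, Finset.mul_sum, Finset.sum_mul]
  refine Finset.sum_congr rfl fun i _ => ?_
  rw [Finset.sum_eq_single i]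
  · calc p.l i * (p.l i * x * p.r i) * p.r i = (p.l i * p.l i) * x * (p.r i * p.r i) := by
          simp only [mul_assoc]
      _ = p.l i * x * p.r i := by rw [p.l_idem, p.r_idem]
  · intro j _ hj
    calc p.l i * (p.l j * x * p.r j) * p.r i = (p.l i * p.l j) * x * p.r j * p.r i := by
          simp only [mul_assoc]
      _ = 0 := by rw [p.l_orth i j (Ne.symm hj)]; simp
  · simp

lemma C_star (x : A) : star (p.C x) = p.C (star x) := by
  rw [C, C, star_sum, ← p.symm]
  refine Finset.sum_congr rfl fun i _ => ?_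
  simp [p.l_star, p.r_star, mul_assoc]

lemma star_y : star p.y = p.y := by rw [y, C_star, S.q_star]

lemma t_nonneg (i : Fin p.k) : 0 ≤ p.t := by
  have h := p.tau_l i
  rw [← p.l_idem i] at h
  nth_rw 1 [← p.l_star i] at h
  rw [← inner_eq_tau, inner_self_eq_norm_sq_to_K] at h
  have : p.t = ‖S.ι (p.l i)‖ ^ 2 := by
    have := congrArg Complex.re h
    simpa [← Complex.ofReal_pow] using this.symm
  rw [this]; positivity

lemma norm_lqr (i : Fin p.k) : ‖S.ι (p.l i * S.q * p.r i)‖ = p.t := by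
  have h : ⟪S.ι (p.l i * S.q * p.r i), S.ι (p.l i * S.q * p.r i)⟫_ℂ = ((p.t * p.t : ℝ) : ℂ) := by
    rw [inner_eq_tau]
    simp only [star_mul, p.l_star, p.r_star, S.q_star]
    calc S.τ (p.r i * (S.q * p.l i) * (p.l i * S.q * p.r i))
        = S.τ (p.r i * (S.q * (p.l i * p.l i) * S.q * p.r i)) := by simp only [mul_assoc]
      _ = S.τ (S.q * p.l i * S.q * (p.r i * p.r i)) := by
          rw [p.l_idem, tau_comm']; simp only [mul_assoc]
      _ = S.τ (p.l i) * S.τ (p.r i) := by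
          rw [p.r_idem]; exact tau_qYqZ (D_le (p.l_mem i)) (D_le (p.r_mem i))
      _ = _ := by rw [p.tau_l, p.tau_r]; push_cast; ring
  rw [inner_self_eq_norm_sq_to_K] at h
  have h2 : ‖S.ι (p.l i * S.q * p.r i)‖ ^ 2 = p.t ^ 2 := by
    have := congrArg Complex.re h
    simpa [← Complex.ofReal_pow, pow_two] using this
  exact (pow_left_inj₀ (norm_nonneg _) (p.t_nonneg i) two_ne_zero).1 h2

lemma norm_y_le : ‖S.ι p.y‖ ≤ p.k * p.t := by
  rw [y, C, map_sum]
  refine (norm_sum_le _ _).trans (le_of_eq ?_)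
  simp [p.norm_lqr]

lemma inner_hyk {h k h' k' : G2} (hne : h ≠ h') (hne' : k ≠ k') :
    ⟪S.ι (E S h * p.y * E S k), S.ι (E S h' * p.y * E S k')⟫_ℂ = 0 := by
  rw [inner_eq_tau]
  simp only [star_mul, star_E, p.star_y]
  calc S.τ (E S k⁻¹ * (p.y * E S h⁻¹) * (E S h' * p.y * E S k'))
      = S.τ (p.y * E S (h⁻¹ * h') * p.y * E S (k' * k⁻¹)) := by
        rw [mul_assoc (E S k⁻¹), tau_comm' (E S k⁻¹)]
        simp only [← E_mul, mul_assoc]
    _ = 0 := by
        have hh : h⁻¹ * h' ≠ 1 := fun e => hne (inv_mul_eq_one.1 e)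
        have hk : k' * k⁻¹ ≠ 1 := fun e => hne' (mul_inv_eq_one.1 e).symm
        simp only [y, C, Finset.sum_mul, Finset.mul_sum, tau_sum]
        refine Finset.sum_eq_zero fun i _ => Finset.sum_eq_zero fun i' _ => ?_
        set g := h⁻¹ * h'
        set g' := k' * k⁻¹
        suffices ∀ i i' : Fin p.k,
            S.τ (p.l i * S.q * p.r i * E S g * (p.l i' * S.q * p.r i') * E S g') = 0 from
          this _ _
        intro i i'
        have e : S.τ (p.l i * S.q * p.r i * E S g * (p.l i' * S.q * p.r i') * E S g') =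
            S.τ (S.q * (p.r i * E S g * p.l i') * S.q * (p.r i' * E S g' * p.l i)) := by
          rw [show p.l i * S.q * p.r i * E S g * (p.l i' * S.q * p.r i') * E S g' =
            p.l i * (S.q * p.r i * E S g * (p.l i' * S.q * p.r i') * E S g') by
              simp only [mul_assoc], tau_comm']
          simp only [mul_assoc]
        rw [e, tau_qYqZ (mul_mem (mul_mem (D_le (p.r_mem i)) (E_le g)) (D_le (p.l_mem i')))
          (mul_mem (mul_mem (D_le (p.r_mem i')) (E_le g')) (D_le (p.l_mem i)))]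
        have z : S.τ (p.r i * E S g * p.l i') = 0 := by
          rw [mul_assoc, tau_comm', mul_assoc]
          exact tau_E_D hh (mul_mem (p.l_mem i') (p.r_mem i))
        rw [z, zero_mul]

lemma norm_hyk (h k : G2) : ‖S.ι (E S h * p.y * E S k)‖ = ‖S.ι p.y‖ := by
  have e : ⟪S.ι (E S h * p.y * E S k), S.ι (E S h * p.y * E S k)⟫_ℂ = ⟪S.ι p.y, S.ι p.y⟫_ℂ := by
    rw [inner_eq_tau, inner_eq_tau]
    simp only [star_mul, star_E, p.star_y]
    rw [mul_assoc (E S k⁻¹), tau_comm' (E S k⁻¹)]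
    simp only [mul_assoc, E_mul', mul_inv_cancel, inv_mul_cancel, E_one, one_mul, E_mul, mul_one]
  simp only [inner_self_eq_norm_sq_to_K] at e
  have : ‖S.ι (E S h * p.y * E S k)‖ ^ 2 = ‖S.ι p.y‖ ^ 2 := by exact_mod_cast e
  exact (pow_left_inj₀ (norm_nonneg _) (norm_nonneg _) two_ne_zero).1 this

/-- The moving carrier moves by `O(t / √L)`. -/
theorem norm_Xv_le {L : ℕ} (hL : 0 < L) :
    ‖S.ι (Xv L (E S) p.y)‖ ≤ 2 * ‖S.ι p.y‖ / Real.sqrt L := by
  set c : ℝ := 1 / (Real.sqrt 2 * L)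
  have hX : S.ι (Xv L (E S) p.y) = (c : ℂ) • (∑ j ∈ Finset.range L,
      S.ι (E S (P j)⁻¹ * p.y * E S (Q L j)⁻¹) -
        ∑ j ∈ Finset.range L, S.ι (E S (Q L j) * p.y * E S (P j))) := by
    rw [Xv, ← Complex.coe_smul, map_smul, map_sum, ← Finset.sum_sub_distrib]
    simp only [map_sub]; rfl
  have b1 := norm_sum_orth (Finset.range L)
    (fun j => S.ι (E S (P j)⁻¹ * p.y * E S (Q L j)⁻¹))
    (fun i _ j _ hij => p.inner_hyk (fun e => hij (P_injective (inv_injective e)))
      (fun e => hij (Q_injective L (inv_injective e))))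
    (norm_nonneg (S.ι p.y)) (fun j _ => (p.norm_hyk _ _).le)
  have b2 := norm_sum_orth (Finset.range L)
    (fun j => S.ι (E S (Q L j) * p.y * E S (P j)))
    (fun i _ j _ hij => p.inner_hyk (fun e => hij (Q_injective L e))
      (fun e => hij (P_injective e)))
    (norm_nonneg (S.ι p.y)) (fun j _ => (p.norm_hyk _ _).le)
  rw [Finset.card_range] at b1 b2
  have hc : 0 ≤ c := by positivity
  rw [hX, norm_smul, Complex.norm_real, Real.norm_of_nonneg hc]
  calc c * ‖_ - _‖ ≤ c * (2 * (Real.sqrt L * ‖S.ι p.y‖)) :=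
        mul_le_mul_of_nonneg_left ((norm_sub_le _ _).trans (by linarith)) hc
    _ = (1 / Real.sqrt 2) * (2 * ‖S.ι p.y‖ / Real.sqrt L) := by
        have hs : Real.sqrt L * Real.sqrt L = L := Real.mul_self_sqrt (Nat.cast_nonneg _)
        have : 0 < Real.sqrt L := Real.sqrt_pos.2 (by exact_mod_cast hL)
        simp only [c]
        field_simp
        linear_combination ‖S.ι p.y‖ * hs
    _ ≤ 1 * (2 * ‖S.ι p.y‖ / Real.sqrt L) := by
        refine mul_le_mul_of_nonneg_right ?_ (by positivity)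
        rw [div_le_one (by positivity)]
        exact Real.one_le_sqrt.2 one_le_two
    _ = _ := one_mul _

/-- A component of a compressed two-sided translate of `y`. -/
noncomputable def comp (i i' : Fin p.k) (h k : G2) : A :=
  p.l i * E S h * p.l i' * S.q * (p.r i' * E S k * p.r i)

lemma C_hyk (h k : G2) : p.C (E S h * p.y * E S k) = ∑ i, ∑ i', p.comp i i' h k := by
  simp only [C, y, comp, Finset.mul_sum, Finset.sum_mul, mul_assoc]

lemma inner_comp (i i' : Fin p.k) {h k h' k' : G2} (hh : h ≠ 1) (hk : k ≠ 1) (hh' : h' ≠ 1)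
    (hk' : k' ≠ 1) :
    ⟪S.ι (p.comp i i' h k), S.ι (p.comp i i' h' k')⟫_ℂ =
      if h = h' ∧ k = k' then ((p.t ^ 4 : ℝ) : ℂ) else 0 := by
  rw [inner_eq_tau]
  simp only [comp, star_mul, star_E, p.l_star, p.r_star, S.q_star]
  have hY : p.l i' * E S h⁻¹ * p.l i * E S h' * p.l i' ∈ DE S := by
    have := p.l_mem i; have := p.l_mem i'
    exact mul_mem (mul_mem (mul_mem (mul_mem (D_le ‹_›) (E_le _)) (D_le ‹_›)) (E_le _)) (D_le ‹_›)
  have hZ : p.r i' * E S k' * p.r i * E S k⁻¹ * p.r i' ∈ DE S := by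
    have := p.r_mem i; have := p.r_mem i'
    exact mul_mem (mul_mem (mul_mem (mul_mem (D_le ‹_›) (E_le _)) (D_le ‹_›)) (E_le _)) (D_le ‹_›)
  have eY : S.τ (p.l i' * E S h⁻¹ * p.l i * E S h' * p.l i') =
      if h = h' then (p.t : ℂ) * p.t else 0 := by
    rw [tau_comm', ← mul_assoc, ← mul_assoc, ← mul_assoc, p.l_idem,
      tau_D_E_D_E (inv_ne_one.2 hh) hh' (p.l_mem i') (p.l_mem i), p.tau_l, p.tau_l]
    exact if_congr inv_mul_eq_one rfl rfl
  have eZ : S.τ (p.r i' * E S k' * p.r i * E S k⁻¹ * p.r i') =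
      if k = k' then (p.t : ℂ) * p.t else 0 := by
    rw [tau_comm', ← mul_assoc, ← mul_assoc, ← mul_assoc, p.r_idem,
      tau_D_E_D_E hk' (inv_ne_one.2 hk) (p.r_mem i') (p.r_mem i), p.tau_r, p.tau_r]
    exact if_congr (mul_inv_eq_one.trans eq_comm) rfl rfl
  calc S.τ _ = S.τ (p.r i * E S k⁻¹ * p.r i' * (S.q *
        (p.l i' * E S h⁻¹ * (p.l i * p.l i) * E S h' * p.l i') * S.q *
        (p.r i' * E S k' * p.r i))) := by
        congr 1; simp only [mul_assoc]
    _ = S.τ (S.q * (p.l i' * E S h⁻¹ * p.l i * E S h' * p.l i') * S.q *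
        (p.r i' * E S k' * (p.r i * p.r i) * E S k⁻¹ * p.r i')) := by
        rw [p.l_idem, tau_comm']; simp only [mul_assoc]
    _ = _ := by
        rw [p.r_idem, tau_qYqZ hY hZ, eY, eZ]
        by_cases h1 : h = h' <;> by_cases h2 : k = k' <;> simp [h1, h2]
        ring

lemma norm_comp (i i' : Fin p.k) {h k : G2} (hh : h ≠ 1) (hk : k ≠ 1) :
    ‖S.ι (p.comp i i' h k)‖ = p.t ^ 2 := by
  have e := p.inner_comp i i' hh hk hh hk
  rw [if_pos ⟨rfl, rfl⟩, inner_self_eq_norm_sq_to_K] at e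
  have h2 : ‖S.ι (p.comp i i' h k)‖ ^ 2 = (p.t ^ 2) ^ 2 := by
    rw [← pow_mul]
    exact Complex.ofReal_injective (by push_cast at e ⊢; exact e)
  exact (pow_left_inj₀ (norm_nonneg _) (by positivity) two_ne_zero).1 h2

/-- A family of compressed translates with distinct pairs of non-trivial words is orthogonal in
each component. -/
lemma norm_sum_C_le {ι' : Type*} (s : Finset ι') (h k : ι' → G2)
    (h1 : ∀ x ∈ s, h x ≠ 1 ∧ k x ≠ 1) (hinj : Set.InjOn h s) :
    ‖S.ι (p.C (∑ x ∈ s, E S (h x) * p.y * E S (k x)))‖ ≤ 4 * (Real.sqrt s.card * p.t ^ 2) := by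
  rw [C_sum]
  simp only [C_hyk, map_sum]
  rw [Finset.sum_comm]
  simp only [Finset.sum_comm (s := s)]
  refine (norm_sum_le _ _).trans ((Finset.sum_le_sum fun i _ => (norm_sum_le _ _).trans
    (Finset.sum_le_sum fun i' _ => norm_sum_orth s _ (fun x hx x' hx' hne => ?_) (sq_nonneg p.t)
      (fun x hx => (p.norm_comp i i' (h1 x hx).1 (h1 x hx).2).le))).trans ?_)
  · rw [p.inner_comp i i' (h1 x hx).1 (h1 x hx).2 (h1 x' hx').1 (h1 x' hx').2,
      if_neg (fun e => hne (hinj hx hx' e.1))]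
  · simp only [Finset.sum_const, Finset.card_univ, Fintype.card_fin, nsmul_eq_mul, ← mul_assoc]
    have : (p.k : ℝ) * p.k ≤ 4 := by
      have h2 : (p.k : ℝ) ≤ 2 := by exact_mod_cast p.k_le
      nlinarith [Nat.cast_nonneg (α := ℝ) p.k]
    exact mul_le_mul_of_nonneg_right (mul_le_mul_of_nonneg_right this (Real.sqrt_nonneg _))
      (sq_nonneg _)

lemma C_one_le {w : G2} (hw : w ≠ 1) :
    ‖S.ι (p.C (E S w * p.y * E S w))‖ ≤ 4 * p.t ^ 2 := by
  have := p.norm_sum_C_le ({()} : Finset Unit) (fun _ => w) (fun _ => w)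
    (fun _ _ => ⟨hw, hw⟩) (fun _ _ _ _ _ => rfl)
  simpa using this

/-- The off-diagonal part of one of the four kinds. -/
noncomputable def off (L : ℕ) (t : Fin 4) : A :=
  ∑ x ∈ (Finset.range L ×ˢ Finset.range L).filter (fun x => x.1 ≠ x.2),
    E S (left L t x.1 x.2) * p.y * E S (right L t x.1 x.2)

lemma norm_C_off_le (L : ℕ) (t : Fin 4) : ‖S.ι (p.C (p.off L t))‖ ≤ 4 * (L * p.t ^ 2) := by
  refine (p.norm_sum_C_le _ _ _ (fun x hx => ?_) (fun x hx x' hx' e => ?_)).trans ?_
  · simp only [Finset.mem_filter, Finset.mem_product, Finset.mem_range] at hx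
    exact ⟨left_ne_one t hx.1.1 hx.1.2 hx.2, right_ne_one t hx.1.1 hx.1.2 hx.2⟩
  · simp only [Finset.coe_filter, Set.mem_ofPred_eq] at hx
    exact Prod.ext (left_injOn t hx.2 e).1 (left_injOn t hx.2 e).2
  · refine mul_le_mul_of_nonneg_left (mul_le_mul_of_nonneg_right ?_ (sq_nonneg _)) (by norm_num)
    rw [Real.sqrt_le_left (Nat.cast_nonneg L)]
    have := Finset.card_filter_le (Finset.range L ×ˢ Finset.range L) (fun x => x.1 ≠ x.2)
    simp only [Finset.card_product, Finset.card_range] at this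
    rw [pow_two]
    exact_mod_cast this

lemma sum_split (L : ℕ) (t : Fin 4) :
    ∑ j ∈ Finset.range L, ∑ l ∈ Finset.range L,
        E S (left L t j l) * p.y * E S (right L t j l) =
      ∑ j ∈ Finset.range L, E S (left L t j j) * p.y * E S (right L t j j) + p.off L t := by
  rw [← Finset.sum_product', ← Finset.sum_filter_add_sum_filter_not
    (Finset.range L ×ˢ Finset.range L) (fun x => x.1 = x.2), off]
  congr 1
  refine Finset.sum_nbij' (fun x => x.1) (fun j => (j, j)) ?_ ?_ ?_ ?_ ?_ <;>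
    simp +contextual

lemma dgv_eq {L : ℕ} (hL : 0 < L) :
    dgv L (E S) p.y = p.y - (1 / 2 : ℝ) • (E S (W L) * p.y * E S (W L) +
        E S (W L)⁻¹ * p.y * E S (W L)⁻¹) +
      (1 / (2 * L) : ℝ) • (p.off L 0 - p.off L 1 - p.off L 2 + p.off L 3) := by
  have hc : (1 / Real.sqrt 2 : ℝ) * (1 / (Real.sqrt 2 * L)) = 1 / (2 * L) := by
    rw [div_mul_div_comm, one_mul, ← mul_assoc, Real.mul_self_sqrt (by norm_num)]
  have e : dgv L (E S) p.y = (1 / (2 * L) : ℝ) • ∑ j ∈ Finset.range L, ∑ l ∈ Finset.range L,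
      (E S (left L 0 j l) * p.y * E S (right L 0 j l) -
        E S (left L 1 j l) * p.y * E S (right L 1 j l) -
        E S (left L 2 j l) * p.y * E S (right L 2 j l) +
        E S (left L 3 j l) * p.y * E S (right L 3 j l)) := by
    rw [dgv, ← hc, mul_smul]
    congr 1
    rw [Finset.smul_sum]
    refine Finset.sum_congr rfl fun j _ => ?_
    simp only [Xv, mul_smul_comm, smul_mul_assoc, ← smul_sub, Finset.mul_sum, Finset.sum_mul,
      ← Finset.sum_sub_distrib]
    congr 1
    refine Finset.sum_congr rfl fun l _ => ?_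
    simp only [left, right, Matrix.cons_val_zero, Matrix.cons_val_one, Matrix.cons_val,
      ← E_mul, mul_sub, sub_mul, mul_assoc]
    abel
  rw [e]
  simp only [Finset.sum_add_distrib, Finset.sum_sub_distrib, p.sum_split,
    left_diag, right_diag, E_one, one_mul, mul_one, Finset.sum_const, Finset.card_range]
  simp only [← Nat.cast_smul_eq_nsmul ℝ L]
  have hL' : (L : ℝ) ≠ 0 := by exact_mod_cast hL.ne'
  match_scalars <;> field_simp <;> ring_nf

/-- The derivation carries the rotated word back to the piece up to `O(t²)`, uniformly in `L`. -/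
theorem norm_err_le {L : ℕ} (hL : 0 < L) :
    ‖S.ι (p.C (dgv L (E S) p.y) - p.y)‖ ≤ 12 * p.t ^ 2 := by
  have hy : p.C p.y = p.y := p.C_C S.q
  have hw : W L ≠ 1 := W_ne_one hL.ne'
  rw [p.dgv_eq hL]
  simp only [C_add, C_sub, C_smul, hy]
  have hrw : ∀ (u v : A), (p.y - u + v - p.y) = v - u := fun u v => by abel
  rw [hrw]
  simp only [← Complex.coe_smul, map_sub, map_smul, map_add]
  refine (norm_sub_le _ _).trans ?_
  rw [norm_smul, norm_smul, Complex.norm_real, Complex.norm_real, Real.norm_of_nonneg (by positivity),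
    Real.norm_of_nonneg (by norm_num : (0:ℝ) ≤ 1 / 2)]
  have b1 := p.C_one_le hw
  have b2 := p.C_one_le (inv_ne_one.2 hw)
  have o : ∀ t, ‖S.ι (p.C (p.off L t))‖ ≤ 4 * (L * p.t ^ 2) := p.norm_C_off_le L
  have n1 := norm_add_le (S.ι (p.C (E S (W L) * p.y * E S (W L))))
    (S.ι (p.C (E S (W L)⁻¹ * p.y * E S (W L)⁻¹)))
  have n2 : ‖S.ι (p.C (p.off L 0)) - S.ι (p.C (p.off L 1)) - S.ι (p.C (p.off L 2)) +
      S.ι (p.C (p.off L 3))‖ ≤ 16 * (L * p.t ^ 2) := by
    refine (norm_add_le _ _).trans ?_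
    have h1 := norm_sub_le (S.ι (p.C (p.off L 0)) - S.ι (p.C (p.off L 1))) (S.ι (p.C (p.off L 2)))
    have h2 := norm_sub_le (S.ι (p.C (p.off L 0))) (S.ι (p.C (p.off L 1)))
    linarith [o 0, o 1, o 2, o 3]
  have h3 := mul_le_mul_of_nonneg_left n2 (show (0:ℝ) ≤ 1 / (2 * L) by positivity)
  have h4 : (1 / (2 * L) : ℝ) * (16 * (L * p.t ^ 2)) = 8 * p.t ^ 2 := by
    field_simp; ring
  linarith

end Piece

/-- An off-diagonal piece. -/
def Piece.pair (e f : A) (t : ℝ) (he : e ∈ S.D) (hf : f ∈ S.D) (hes : star e = e) (hfs : star f = f)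
    (hee : e * e = e) (hff : f * f = f) (hef : e * f = 0) (hfe : f * e = 0)
    (hte : S.τ e = (t : ℂ)) (htf : S.τ f = (t : ℂ)) : Piece S where
  t := t
  k := 2
  k_le := le_rfl
  l := ![e, f]
  r := ![f, e]
  l_mem i := by fin_cases i <;> simpa
  r_mem i := by fin_cases i <;> simpa
  l_star i := by fin_cases i <;> simpa
  r_star i := by fin_cases i <;> simpa
  l_idem i := by fin_cases i <;> simpa
  r_idem i := by fin_cases i <;> simpa
  l_orth i j h := by fin_cases i <;> fin_cases j <;> simp_all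
  symm x := by simp [Fin.sum_univ_two, add_comm]
  tau_l i := by fin_cases i <;> simpa
  tau_r i := by fin_cases i <;> simpa

/-- A diagonal piece. -/
def Piece.diag (e : A) (t : ℝ) (he : e ∈ S.D) (hes : star e = e) (hee : e * e = e)
    (hte : S.τ e = (t : ℂ)) : Piece S where
  t := t
  k := 1
  k_le := one_le_two
  l := ![e]
  r := ![e]
  l_mem i := by fin_cases i; simpa
  r_mem i := by fin_cases i; simpa
  l_star i := by fin_cases i; simpa
  r_star i := by fin_cases i; simpa
  l_idem i := by fin_cases i; simpa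
  r_idem i := by fin_cases i; simpa
  l_orth i j h := absurd (Subsingleton.elim i j) h
  symm x := rfl
  tau_l i := by fin_cases i; simpa
  tau_r i := by fin_cases i; simpa

end VP086.Word
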